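import Vale.Agent.Lib.P225R.MainR

/-!
# P225: Yau's dimension comparison for rotationally symmetric metrics

Let `g = F(|x|²) (dx₁² + ... + dxₙ²)` be a complete metric on `ℝ^n`, `n ≥ 2`, with `F` smooth and positive, and
`Ric_g ≥ 0`. Then for every integer `k ≥ 1` the space of harmonic functions of polynomial growth of degree at most `k`
has dimension at most `h_k(ℝ^n, g_E) = C(n+k-1, k) + C(n+k-2, k-1)`. (Every complete rotationally symmetric metric on
`ℝ^n` with nonnegative Ricci curvature has this form in suitable coordinates.)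

Proof: with `s = |x|²`, `L = s F'/F`, nonnegative Ricci curvature in the radial directions says that `L` is
nonincreasing, completeness gives `-1 ≤ L ≤ 0`. Harmonic functions solve `Δu + (n-2) (F'/F) x·∇u = 0`. If such a `u`
vanishes to order `k + 1` at the origin and has growth at most `k`, then one weighted Rellich-Pohozaev identity, with
weight `s^(-q)`, `q = n/2 - 1 + κ`, `κ = k + 1/2`, gives
`∫ s^(-q-1) ((n-2) L + 2q) (x·∇u - κ u)² + κ (n-2) ∫ s^(-q) (-L') u² = 0`, so `x·∇u = κ u` and `u = 0`. Finally the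
derivatives of order `≤ k` of a solution at `0` are determined by those with at most one `∂₁`.
-/

namespace Vale.Agent.Results.P225.RotSymmetric

open Vale.Agent.P225
open scoped ContDiff

theorem result (n : ℕ) (hn : 2 ≤ n) (F : ℝ → ℝ) (hF : ContDiff ℝ ∞ F) (hpos : ∀ s, 0 < F s)
    (hc : IsCompl (conf (n := n) F)) (hric : ∀ x : Fin n → ℝ, (ric (conf F) x).PosSemidef)
    (k : ℕ) (hk : 1 ≤ k) (V : Submodule ℝ ((Fin n → ℝ) → ℝ))
    (hV : ∀ u ∈ V, HarmGrowth (conf F) k u) :
    FiniteDimensional ℝ V ∧
      Module.finrank ℝ V ≤ (n + k - 1).choose k + (n + k - 2).choose (k - 1) := by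
  obtain ⟨m, rfl⟩ : ∃ m, n = m + 1 := ⟨n - 1, by omega⟩
  have h := main_r m (by omega) F hF hpos hc hric k hk V hV
  have e1 : m + 1 + k - 1 = m + k := by omega
  have e2 : m + 1 + k - 2 = m + k - 1 := by omega
  rw [e1, e2]
  exact h

end Vale.Agent.Results.P225.RotSymmetric
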